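import Vale.Agent.P038.H686.Key
import Vale.Agent.P038.H71.Plan

/-!
# P038 (H686): Seymour's second neighbourhood conjecture
-/

namespace Vale.Agent.P038.H686

open Finset Vale.Agent.P038.H139 Vale.Agent.P038.H71

universe u

variable {V : Type u} [Fintype V]

/-- `c(S) = |N[S]| - |S|`. -/
noncomputable def cc (D : OGraph V) (S : Finset V) : ℤ := ((cl D S).card : ℤ) - S.card

open Classical in
theorem cc_submod (D : OGraph V) (S T : Finset V) :
    cc D (S ∩ T) + cc D (S ∪ T) ≤ cc D S + cc D T := by
  have h1 : (cl D (S ∪ T)).card + (cl D S ∩ cl D T).card = (cl D S).card + (cl D T).card := by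
    have : cl D (S ∪ T) = cl D S ∪ cl D T := cl_union
    rw [this]
    exact card_union_add_card_inter _ _
  have h2 : (cl D (S ∩ T)).card ≤ (cl D S ∩ cl D T).card :=
    card_le_card (subset_inter (cl_mono inter_subset_left) (cl_mono inter_subset_right))
  have h3 := card_union_add_card_inter S T
  unfold cc
  push_cast
  omega

/-- The counterexamples. -/
def CE (D : OGraph V) : Prop := ∀ v, (N2 D v).card < (N1 D v).card

theorem W_one (S : Finset V) : W (fun _ => (1 : ℝ)) S = S.card := by simp [W]

theorem Fw_one (D : OGraph V) (v : V) :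
    Fw 1 D (fun _ => (1 : ℝ)) v = (N1 D v).card - (N2 D v).card := by
  simp [Fw, W_one]

theorem CE_iff (D : OGraph V) : CE D ↔ ∀ v, 0 < Fw 1 D (fun _ => (1 : ℝ)) v := by
  unfold CE
  refine forall_congr' fun v => ?_
  rw [Fw_one]
  constructor
  · intro h
    have : ((N2 D v).card : ℝ) < (N1 D v).card := by exact_mod_cast h
    linarith
  · intro h
    have : ((N2 D v).card : ℝ) < (N1 D v).card := by linarith
    exact_mod_cast this

open Classical in
/-- (G) in the counterexample with the fewest arcs. -/
theorem G_dd {D : OGraph V} (hD : CE D) (hmin : ∀ D' : OGraph V, CE D' → numArcs D ≤ numArcs D')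
    (X T : Finset V) (hT : T ⊂ Lx D X) :
    dd 1 D (fun _ => (1 : ℝ)) X (Lx D X) < dd 1 D (fun _ => (1 : ℝ)) X T := by
  set L := Lx D X with hL
  set d := dd 1 D (fun _ => (1 : ℝ)) X with hd
  have hw : ∀ v : V, (0 : ℝ) ≤ (fun _ => (1 : ℝ)) v := fun _ => zero_le_one
  obtain ⟨T0, hT0, hT0min⟩ := Finset.exists_min_image L.powerset d ⟨∅, Finset.empty_mem_powerset _⟩
  have hall : ∀ T1 ⊆ L, (∀ S ⊆ L, d T1 ≤ d S) → T1 = L := by
    intro T1 hT1 h1
    by_contra hne
    obtain ⟨z, hzL, hzT⟩ : ∃ z ∈ L, z ∉ T1 := by
      by_contra hc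
      push Not at hc
      exact hne (Finset.Subset.antisymm hT1 hc)
    have hzL' : z ∈ outS D X \ X := hzL
    obtain ⟨y, hy, hyz⟩ := mem_outS.1 (Finset.mem_sdiff.1 hzL').1
    have h3 := numArcs_lt_del (D := D) (Z := L \ T1) hy (Finset.mem_sdiff.2 ⟨hzL, hzT⟩) hyz
    have h4 : CE (del D X (L \ T1)) := by
      rw [CE_iff] at hD ⊢
      intro v
      by_cases hv : v ∈ X
      · have h5 := del_row_in (lam := 1) (D := D) hw X T1 hv
        have h6 := h1 (T1 ∪ (N1 D v ∩ (L \ T1)))
          (Finset.union_subset hT1 (Finset.inter_subset_right.trans Finset.sdiff_subset))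
        have h7 := hD v
        have h8 : Fw 1 D (fun _ => (1 : ℝ)) v + (d (T1 ∪ (N1 D v ∩ (L \ T1))) - d T1) ≤
          Fw 1 (del D X (L \ T1)) (fun _ => (1 : ℝ)) v := h5
        linarith
      · have h5 := del_row_out (lam := 1) (D := D) hw X (L \ T1) hv
        have h7 := hD v
        linarith
    have h5 := hmin _ h4
    omega
  have hT0L : T0 = L := hall T0 (Finset.mem_powerset.1 hT0)
    fun S hS => hT0min S (Finset.mem_powerset.2 hS)
  have h1 : ∀ S ⊆ L, d L ≤ d S := by
    intro S hS
    have := hT0min S (Finset.mem_powerset.2 hS)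
    rwa [hT0L] at this
  rcases lt_or_eq_of_le (h1 T hT.1) with h2 | h2
  · exact h2
  · exfalso
    have := hall T hT.1 fun S hS => by rw [← h2]; exact h1 S hS
    exact hT.ne this

theorem subset_cl {D : OGraph V} (S : Finset V) : S ⊆ cl D S := fun x hx => mem_cl.2 (Or.inl hx)

open Classical in
/-- (G): `c(N[S]) < c(S)` if `S` is not closed. -/
theorem G_lt {D : OGraph V} (hD : CE D) (hmin : ∀ D' : OGraph V, CE D' → numArcs D ≤ numArcs D')
    (S : Finset V) (hS : cl D S ≠ S) : cc D (cl D S) < cc D S := by
  have hL : Lx D S = outS D S \ S := rfl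
  have e1 : cl D S = S ∪ Lx D S := by
    ext z
    rw [hL, mem_union, mem_sdiff, mem_outS, mem_cl]
    tauto
  have hdis : Disjoint S (Lx D S) := by
    rw [hL]
    exact disjoint_sdiff
  have hne : (Lx D S).Nonempty := by
    rw [nonempty_iff_ne_empty]
    intro he
    rw [he, union_empty] at e1
    exact hS e1
  have hss : (∅ : Finset V) ⊂ Lx D S := by
    rw [Finset.ssubset_iff_subset_ne]
    exact ⟨empty_subset _, fun h => by rw [← h] at hne; simp at hne⟩
  have h1 := G_dd hD hmin S ∅ hss
  have h2 : dd 1 D (fun _ => (1 : ℝ)) S ∅ = 0 := by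
    have : cl D (∅ : Finset V) = ∅ := by
      rw [Finset.eq_empty_iff_forall_notMem]
      intro z hz
      rw [mem_cl] at hz
      simp at hz
    simp [dd, this, W]
  rw [h2] at h1
  unfold dd at h1
  rw [W_one, W_one] at h1
  have h3 : (cl D (Lx D S) \ S).card < 2 * (Lx D S).card := by
    have : ((cl D (Lx D S) \ S).card : ℝ) < 2 * (Lx D S).card := by linarith
    exact_mod_cast this
  have h4 : (cl D S).card = S.card + (Lx D S).card := by
    rw [e1, card_union_of_disjoint hdis]
  have h5 : (cl D (cl D S)).card = S.card + (cl D (Lx D S) \ S).card := by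
    have e2 : cl D (cl D S) = S ∪ (cl D (Lx D S) \ S) := by
      have e3 : cl D (cl D S) = cl D S ∪ cl D (Lx D S) := by
        conv_lhs => rw [e1]
        exact cl_union
      rw [e3]
      ext z
      have h6 := @subset_cl V _ D (Lx D S) z
      have h7 : z ∈ cl D S ↔ z ∈ S ∨ z ∈ Lx D S := by rw [e1, mem_union]
      simp only [mem_union, mem_sdiff]
      tauto
    rw [e2, card_union_of_disjoint disjoint_sdiff]
  unfold cc
  omega

theorem G_le {D : OGraph V} (hD : CE D) (hmin : ∀ D' : OGraph V, CE D' → numArcs D ≤ numArcs D')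
    (S : Finset V) : cc D (cl D S) ≤ cc D S := by
  by_cases h : cl D S = S
  · rw [h]
  · exact (G_lt hD hmin S h).le

open Classical in
/-- The closed in-neighbourhood. -/
noncomputable def inn (D : OGraph V) (t : V) : Finset V := univ.filter fun s => s = t ∨ D.arc s t

theorem mem_inn {D : OGraph V} {s t : V} : s ∈ inn D t ↔ s = t ∨ D.arc s t := by
  classical
  simp [inn]

theorem self_inn {D : OGraph V} (t : V) : t ∈ inn D t := mem_inn.2 (Or.inl rfl)

/-- Admissible pairs. -/
structure Adm (D : OGraph V) (P U : V → Finset V) : Prop where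
  base : ∀ a b, (a = b ∨ D.arc a b) → b ∈ P a
  sub : ∀ a b, b ∈ P a → a ≠ b → b ∈ U a
  diag : ∀ a, a ∉ U a
  rev : ∀ a b, D.arc b a → b ∉ U a

/-- The cost of a pair. -/
noncomputable def cost (D : OGraph V) (P U : V → Finset V) : ℤ :=
  ∑ a, (cc D (P a) + (U a).card - (meet U (inn D a)).card)

open Classical in
theorem exists_minimiser (D : OGraph V) : ∃ P U : V → Finset V, Adm D P U ∧
    ∀ P' U' : V → Finset V, Adm D P' U' → cost D P U ≤ cost D P' U' := by
  obtain ⟨p, hp, hmin⟩ := Set.exists_min_image
    {p : (V → Finset V) × (V → Finset V) | Adm D p.1 p.2} (fun p => cost D p.1 p.2)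
    (Set.toFinite _) ⟨(fun a => cl D {a}, fun a => N1 D a), by
      refine ⟨?_, ?_, ?_, ?_⟩
      · intro a b h
        rcases h with rfl | h
        · exact mem_cl.2 (Or.inl (mem_singleton_self _))
        · exact mem_cl.2 (Or.inr ⟨a, mem_singleton_self _, h⟩)
      · intro a b h hab
        rcases mem_cl.1 h with h | ⟨y, hy, h⟩
        · exact absurd (mem_singleton.1 h).symm hab
        · rw [mem_singleton.1 hy] at h
          exact mem_N1.2 h
      · intro a h
        exact D.loopless a (mem_N1.1 h)
      · intro a b h h'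
        exact D.asymm _ _ h (mem_N1.1 h')⟩
  exact ⟨p.1, p.2, hp, fun P' U' h => hmin (P', U') h⟩

open Classical in
/-- The column formula. -/
theorem col_cost (D : OGraph V) (R : V → Finset V) :
    ∑ b, cc D (univ.filter fun a => b ∉ R a) =
      ∑ a, ((R a).card : ℤ) - ∑ t, ((meet R (inn D t)).card : ℤ) := by
  have e0 : ∀ b, cl D (univ.filter fun a => b ∉ R a) =
      univ.filter fun t => b ∉ meet R (inn D t) := by
    intro b
    ext t
    simp only [mem_cl, mem_filter, mem_univ, true_and, mem_meet, mem_inn]
    constructor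
    · rintro (h | ⟨y, hy, h⟩) h'
      · exact h (h' t (Or.inl rfl))
      · exact hy (h' y (Or.inr h))
    · intro h
      push Not at h
      obtain ⟨z, hz | hz, h⟩ := h
      · subst hz
        exact Or.inl h
      · exact Or.inr ⟨z, h, hz⟩
  have e1 : ∀ R : V → Finset V, ∑ b, ((univ.filter fun a => b ∉ R a).card : ℤ) =
      ∑ a : V, ((univ : Finset V).card : ℤ) - ∑ a, ((R a).card : ℤ) := by
    intro R
    have h1 : ∑ b, ((univ.filter fun a => b ∉ R a).card : ℤ) =
        ∑ b, ∑ a, if b ∉ R a then (1 : ℤ) else 0 := by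
      refine Finset.sum_congr rfl fun b _ => ?_
      rw [Finset.card_filter]
      push_cast
      rfl
    rw [h1, Finset.sum_comm, ← Finset.sum_sub_distrib]
    refine Finset.sum_congr rfl fun a _ => ?_
    have h2 : ∑ b, (if b ∉ R a then (1 : ℤ) else 0) = ((univ.filter fun b => b ∉ R a).card : ℤ) := by
      rw [Finset.card_filter]
      push_cast
      rfl
    rw [h2]
    have h3 : (univ.filter fun b => b ∉ R a) = univ \ R a := by
      ext b
      simp
    rw [h3, card_sdiff_of_subset (subset_univ _)]
    have h4 := card_le_card (subset_univ (R a))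
    push_cast [Nat.cast_sub h4]
    ring
  unfold cc
  rw [Finset.sum_sub_distrib]
  simp only [e0]
  have a1 := e1 R
  have a2 := e1 fun t => meet R (inn D t)
  linarith


theorem adm_not_inn {D : OGraph V} {P U : V → Finset V} (h : Adm D P U) {a b : V}
    (hb : b ∈ inn D a) : b ∉ U a := by
  rcases mem_inn.1 hb with rfl | hb
  · exact h.diag b
  · exact h.rev a b hb

/-- No cyclic closed family. -/
theorem not_all_closed {D : OGraph V} [Nonempty V] (hD : CE D) (X : V → Finset V)
    (h1 : ∀ a, a ∈ X a) (h2 : ∀ a b, D.arc b a → b ∉ X a) : ∃ a, cl D (X a) ≠ X a := by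
  classical
  by_contra hcon
  push Not at hcon
  obtain ⟨R, hR, hmin⟩ := Finset.exists_min_image
    (univ.filter fun R : Finset V => R.Nonempty ∧ cl D R ⊆ R) Finset.card
    ⟨univ, by simp [univ_nonempty]⟩
  simp only [mem_filter, mem_univ, true_and] at hR hmin
  obtain ⟨a, ha⟩ := hR.1
  have hne : (N1 D a).Nonempty := by
    rw [← Finset.card_pos]
    have := hD a
    omega
  obtain ⟨b, hb⟩ := hne
  have hab := mem_N1.1 hb
  have hbR : b ∈ R := hR.2 (mem_cl.2 (Or.inr ⟨a, ha, hab⟩))
  have h3 : (X b ∩ R).Nonempty ∧ cl D (X b ∩ R) ⊆ X b ∩ R := by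
    refine ⟨⟨b, mem_inter.2 ⟨h1 b, hbR⟩⟩, subset_inter ?_ ?_⟩
    · have := cl_mono (D := D) (inter_subset_left : X b ∩ R ⊆ X b)
      rwa [hcon b] at this
    · exact (cl_mono (D := D) (inter_subset_right : X b ∩ R ⊆ R)).trans hR.2
  have h4 := hmin _ h3
  have h5 : X b ∩ R = R := Finset.eq_of_subset_of_card_le inter_subset_right h4
  have h6 : a ∈ X b := (mem_inter.1 (by rw [h5]; exact ha : a ∈ X b ∩ R)).1
  exact h2 b a hab h6

open Classical in
/-- There is no counterexample. -/
theorem no_CE [Nonempty V] (D : OGraph V) (hD : CE D)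
    (hmin : ∀ D' : OGraph V, CE D' → numArcs D ≤ numArcs D') : False := by
  obtain ⟨P, U, hA, hopt⟩ := exists_minimiser D
  let Q : V → Finset V := fun a => insert a (U a)
  let M : V → Finset V := fun t => meet U (inn D t)
  let S : V → Finset V := fun t => meet P (inn D t)
  have hPQ : ∀ a, P a ⊆ Q a := by
    intro a b hb
    by_cases hab : a = b
    · subst hab
      exact mem_insert_self _ _
    · exact mem_insert_of_mem (hA.sub a b hb hab)
  have hMU : ∀ s t, s ∈ inn D t → M t ⊆ U s := fun s t hs x hx => mem_meet.1 hx s hs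
  -- row optimality
  have hR : ∀ a S, P a ⊆ S → S ⊆ Q a → cc D (P a) ≤ cc D S := by
    intro a S h1 h2
    have hA' : Adm D (Function.update P a S) U := by
      refine ⟨?_, ?_, hA.diag, hA.rev⟩
      · intro x b hb
        by_cases hx : x = a
        · subst hx
          rw [Function.update_self]
          exact h1 (hA.base x b hb)
        · rw [Function.update_of_ne hx]
          exact hA.base x b hb
      · intro x b hb hxb
        by_cases hx : x = a
        · subst hx
          rw [Function.update_self] at hb
          rcases mem_insert.1 (h2 hb) with h | h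
          · exact absurd h.symm hxb
          · exact h
        · rw [Function.update_of_ne hx] at hb
          exact hA.sub x b hb hxb
    have h3 := hopt _ _ hA'
    unfold cost at h3
    rw [← sub_nonneg, ← Finset.sum_sub_distrib] at h3
    rw [Finset.sum_eq_single a] at h3
    · rw [Function.update_self] at h3
      linarith
    · intro x _ hx
      rw [Function.update_of_ne hx]
      ring
    · intro h
      exact absurd (mem_univ a) h
  -- column optimality
  have hC : ∀ b, ∀ T : Finset V, (∀ a ∈ T, b ∈ Q a ∧ b ∉ P a) →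
      T.card ≤ (univ.filter fun t => b ∈ meet Q (inn D t) ∧ ∃ z ∈ inn D t, z ∈ T).card := by
    intro b T hT
    have hTU : ∀ a ∈ T, b ∈ U a := by
      intro a ha
      obtain ⟨h1, h2⟩ := hT a ha
      rcases mem_insert.1 h1 with h | h
      · subst h
        exact absurd (hA.base b b (Or.inl rfl)) h2
      · exact h
    let U' : V → Finset V := fun a => if a ∈ T then (U a).erase b else U a
    have hU'U : ∀ a, U' a ⊆ U a := by
      intro a
      simp only [U']
      split_ifs
      · exact erase_subset _ _
      · exact Subset.refl _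
    have hA' : Adm D P U' := by
      refine ⟨hA.base, ?_, fun a h => hA.diag a (hU'U a h), fun a x h h' => hA.rev a x h (hU'U a h')⟩
      intro a x hx hax
      simp only [U']
      split_ifs with haT
      · refine mem_erase.2 ⟨?_, hA.sub a x hx hax⟩
        rintro rfl
        exact (hT a haT).2 hx
      · exact hA.sub a x hx hax
    have h3 := hopt _ _ hA'
    set F := univ.filter fun t => b ∈ meet Q (inn D t) ∧ ∃ z ∈ inn D t, z ∈ T with hF
    have h4 : ∑ a, ((U' a).card : ℤ) = ∑ a, ((U a).card : ℤ) - T.card := by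
      have e : ∀ a, ((U' a).card : ℤ) = (U a).card - (if a ∈ T then 1 else 0) := by
        intro a
        simp only [U']
        split_ifs with haT
        · rw [card_erase_of_mem (hTU a haT)]
          have : 0 < (U a).card := card_pos.2 ⟨b, hTU a haT⟩
          omega
        · ring
      rw [Finset.sum_congr rfl fun a _ => e a, Finset.sum_sub_distrib]
      congr 1
      simp
    have h5 : ∑ t, ((meet U (inn D t)).card : ℤ) - F.card ≤ ∑ t, ((meet U' (inn D t)).card : ℤ) := by
      have e : ∀ t, ((meet U (inn D t)).card : ℤ) - (if t ∈ F then 1 else 0) ≤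
          ((meet U' (inn D t)).card : ℤ) := by
        intro t
        split_ifs with htF
        · have h6 : (meet U (inn D t)).erase b ⊆ meet U' (inn D t) := by
            intro x hx
            obtain ⟨hxb, hx⟩ := mem_erase.1 hx
            rw [mem_meet] at hx ⊢
            intro z hz
            simp only [U']
            split_ifs
            · exact mem_erase.2 ⟨hxb, hx z hz⟩
            · exact hx z hz
          have h7 := card_le_card h6
          have h8 := Finset.pred_card_le_card_erase (s := meet U (inn D t)) (a := b)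
          omega
        · have h6 : meet U (inn D t) ⊆ meet U' (inn D t) := by
            intro x hx
            rw [mem_meet] at hx ⊢
            intro z hz
            simp only [U']
            split_ifs with hzT
            · refine mem_erase.2 ⟨?_, hx z hz⟩
              rintro rfl
              apply htF
              rw [hF, mem_filter]
              exact ⟨mem_univ _, mem_meet.2 fun y hy => mem_insert_of_mem (hx y hy), z, hz, hzT⟩
            · exact hx z hz
          have h7 := card_le_card h6
          push_cast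
          omega
      have h6 := Finset.sum_le_sum fun t (_ : t ∈ (univ : Finset V)) => e t
      rw [Finset.sum_sub_distrib] at h6
      have h7 : ∑ t, (if t ∈ F then (1 : ℤ) else 0) = F.card := by simp
      linarith
    have h6 : (T.card : ℤ) ≤ F.card := by
      unfold cost at h3
      simp only [Finset.sum_sub_distrib, Finset.sum_add_distrib] at h3
      linarith
    exact_mod_cast h6
  have hkey := key (cc D) (cc_submod D) (inn D) P Q hPQ hR hC
  -- the meets of the rows `Q`
  have hmQ : ∀ t, meet Q (inn D t) = insert t (M t) := by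
    intro t
    ext x
    rw [mem_insert]
    constructor
    · intro hx
      rw [mem_meet] at hx
      by_cases hxt : x = t
      · exact Or.inl hxt
      · right
        rw [mem_meet]
        intro z hz
        rcases mem_insert.1 (hx z hz) with h | h
        · exfalso
          subst h
          rcases mem_insert.1 (hx t (self_inn t)) with h' | h'
          · exact hxt h'
          · exact adm_not_inn hA hz h'
        · exact h
    · rintro (rfl | hx)
      · rw [mem_meet]
        intro z hz
        by_cases hzx : z = x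
        · subst hzx
          exact mem_insert_self _ _
        · refine mem_insert_of_mem (hA.sub z x (hA.base z x ?_) hzx)
          rcases mem_inn.1 hz with h | h
          · exact Or.inl h
          · exact Or.inr h
      · rw [mem_meet] at hx ⊢
        exact fun z hz => mem_insert_of_mem (hx z hz)
  have hSsub : ∀ t, S t ⊆ insert t (M t) := by
    intro t x hx
    rw [← hmQ t, mem_meet]
    exact fun z hz => hPQ z (mem_meet.1 hx z hz)
  have haS : ∀ a, a ∈ S a := by
    intro a
    refine mem_meet.2 fun z hz => hA.base z a ?_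
    rcases mem_inn.1 hz with h | h
    · exact Or.inl h
    · exact Or.inr h
  have hnM : ∀ t, t ∉ M t := fun t h => hA.diag t (hMU t t (self_inn t) h)
  -- the candidate
  let Bo : V → Finset V := fun y => cl D (M y) ∪ N1 D y
  let Wr : V → Finset V := fun z => univ.filter fun x => ∃ y, (z = y ∨ D.arc z y) ∧ x ∈ Bo y
  have hWr : ∀ z x, x ∈ Wr z ↔ ∃ y, (z = y ∨ D.arc z y) ∧ x ∈ Bo y := by
    intro z x
    simp [Wr]
  let U1 : V → Finset V := fun t => meet Wr (inn D t)
  let P1 : V → Finset V := fun a => cl D (S a)
  let Y : V → Finset V := fun b => univ.filter fun a => b ∉ Wr a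
  have hnW : ∀ a, a ∉ Wr a := by
    intro a h
    obtain ⟨y, hy, h⟩ := (hWr a a).1 h
    have hay : a ∈ inn D y := by
      rcases hy with h' | h'
      · exact mem_inn.2 (Or.inl h')
      · exact mem_inn.2 (Or.inr h')
    rcases mem_union.1 h with h | h
    · rcases mem_cl.1 h with h | ⟨x, hx, hxa⟩
      · exact hA.diag a (hMU a y hay h)
      · exact hA.rev a x hxa (hMU a y hay hx)
    · have h' := mem_N1.1 h
      rcases hy with rfl | hy
      · exact D.loopless _ h'
      · exact D.asymm _ _ hy h'
  have hA1 : Adm D P1 U1 := by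
    refine ⟨?_, ?_, ?_, ?_⟩
    · intro a b h
      rcases h with rfl | h
      · exact mem_cl.2 (Or.inl (haS a))
      · exact mem_cl.2 (Or.inr ⟨a, haS a, h⟩)
    · intro a b hb hab
      have h1 : b ∈ Bo a := by
        rcases mem_cl.1 hb with h | ⟨x, hx, hxb⟩
        · rcases mem_insert.1 (hSsub a h) with h | h
          · exact absurd h.symm hab
          · exact mem_union_left _ (mem_cl.2 (Or.inl h))
        · rcases mem_insert.1 (hSsub a hx) with h | h
          · subst h
            exact mem_union_right _ (mem_N1.2 hxb)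
          · exact mem_union_left _ (mem_cl.2 (Or.inr ⟨x, h, hxb⟩))
      refine mem_meet.2 fun s hs => (hWr s b).2 ⟨a, ?_, h1⟩
      exact mem_inn.1 hs
    · intro a h
      exact hnW a (mem_meet.1 h a (self_inn a))
    · intro a b hba h
      exact hnW b (mem_meet.1 h b (mem_inn.2 (Or.inr hba)))
  have hclY : ∀ b, cl D (Y b) = univ.filter fun t => b ∉ U1 t := by
    intro b
    ext t
    simp only [Y, U1, mem_cl, mem_filter, mem_univ, true_and, mem_meet, mem_inn]
    constructor
    · rintro (h | ⟨y, hy, h⟩) h'
      · exact h (h' t (Or.inl rfl))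
      · exact hy (h' y (Or.inr h))
    · intro h
      push Not at h
      obtain ⟨z, hz | hz, h⟩ := h
      · subst hz
        exact Or.inl h
      · exact Or.inr ⟨z, h, hz⟩
  -- the chain
  have h1 : cost D P U ≤ cost D P1 U1 := hopt _ _ hA1
  have h2 : cost D P1 U1 = ∑ a, cc D (cl D (S a)) + ∑ b, cc D (cl D (Y b)) := by
    have h3 := col_cost D U1
    have h4 : ∑ b, cc D (cl D (Y b)) = ∑ b, cc D (univ.filter fun t => b ∉ U1 t) :=
      Finset.sum_congr rfl fun b _ => by rw [hclY b]
    rw [h4, h3]
    unfold cost
    simp only [Finset.sum_sub_distrib, Finset.sum_add_distrib]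
    ring
  have h3 : ∑ b, cc D (Y b) = ∑ z, ((Wr z).card : ℤ) - ∑ t, ((U1 t).card : ℤ) := col_cost D Wr
  have h4 : ∑ z, ((Wr z).card : ℤ) ≤ ∑ z, ((cl D (Q z)).card - 1 : ℤ) := by
    refine Finset.sum_le_sum fun z _ => ?_
    have e1 : Wr z ⊆ cl D (U z) := by
      intro x hx
      obtain ⟨y, hy, hx⟩ := (hWr z x).1 hx
      rcases mem_union.1 hx with hx | hx
      · exact cl_mono (hMU z y (mem_inn.2 hy)) hx
      · have hyx := mem_N1.1 hx
        rcases hy with rfl | hy
        · refine mem_cl.2 (Or.inl (hA.sub _ _ (hA.base _ _ (Or.inr hyx)) ?_))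
          rintro rfl
          exact D.loopless _ hyx
        · refine mem_cl.2 (Or.inr ⟨y, hA.sub _ _ (hA.base _ _ (Or.inr hy)) ?_, hyx⟩)
          rintro rfl
          exact D.loopless _ hy
    have e2 : z ∉ cl D (U z) := by
      intro h
      rcases mem_cl.1 h with h | ⟨y, hy, hyz⟩
      · exact hA.diag z h
      · exact hA.rev z y hyz hy
    have e3 : insert z (cl D (U z)) ⊆ cl D (Q z) := by
      refine insert_subset (mem_cl.2 (Or.inl (mem_insert_self _ _))) (cl_mono (subset_insert _ _))
    have e4 := card_le_card e3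
    rw [card_insert_of_notMem e2] at e4
    have e5 := card_le_card e1
    omega
  have h5 : ∑ t, ((cl D (meet Q (inn D t))).card - 1 : ℤ) ≤ ∑ t, ((U1 t).card : ℤ) := by
    refine Finset.sum_le_sum fun t _ => ?_
    have e1 : Bo t ⊆ U1 t := by
      intro x hx
      exact mem_meet.2 fun s hs => (hWr s x).2 ⟨t, mem_inn.1 hs, hx⟩
    have e2 : cl D (meet Q (inn D t)) ⊆ insert t (Bo t) := by
      intro x hx
      rw [hmQ t] at hx
      rcases mem_cl.1 hx with h | ⟨y, hy, hyx⟩
      · rcases mem_insert.1 h with h | h
        · rw [h]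
          exact mem_insert_self _ _
        · exact mem_insert_of_mem (mem_union_left _ (mem_cl.2 (Or.inl h)))
      · rcases mem_insert.1 hy with h | h
        · subst h
          exact mem_insert_of_mem (mem_union_right _ (mem_N1.2 hyx))
        · exact mem_insert_of_mem (mem_union_left _ (mem_cl.2 (Or.inr ⟨y, h, hyx⟩)))
    have e3 := card_le_card e2
    have e4 := card_insert_le t (Bo t)
    have e5 := card_le_card e1
    omega
  have h6 : ∀ a, ((Q a).card : ℤ) = (U a).card + 1 := by
    intro a
    have : (Q a).card = (U a).card + 1 := card_insert_of_notMem (hA.diag a)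
    exact_mod_cast this
  have h7 : ∀ t, ((meet Q (inn D t)).card : ℤ) = (M t).card + 1 := by
    intro t
    have : (meet Q (inn D t)).card = (M t).card + 1 := by
      rw [hmQ t, card_insert_of_notMem (hnM t)]
    exact_mod_cast this
  have h8 : ∑ a, cc D (S a) + ∑ b, cc D (Y b) ≤ cost D P U := by
    have e1 : cost D P U = ∑ a, cc D (P a) + ∑ a, ((Q a).card : ℤ) -
        ∑ t, ((meet Q (inn D t)).card : ℤ) := by
      rw [Finset.sum_congr rfl fun a _ => h6 a, Finset.sum_congr rfl fun a _ => h7 a]
      unfold cost
      simp only [Finset.sum_sub_distrib, Finset.sum_add_distrib]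
      ring
    rw [e1, h3]
    have e2 : ∑ a, (cc D (Q a) - cc D (P a)) = ∑ a, ((cl D (Q a)).card : ℤ) -
        ∑ a, ((Q a).card : ℤ) - ∑ a, cc D (P a) := by
      simp only [cc, Finset.sum_sub_distrib]
    have e3 : ∑ t, (cc D (meet Q (inn D t)) - cc D (meet P (inn D t))) =
        ∑ t, ((cl D (meet Q (inn D t))).card : ℤ) - ∑ t, ((meet Q (inn D t)).card : ℤ) -
        ∑ t, cc D (S t) := by
      simp only [cc, Finset.sum_sub_distrib, S]
    rw [e2, e3] at hkey
    simp only [Finset.sum_sub_distrib] at h4 h5
    linarith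
  -- strictness
  obtain ⟨a0, ha0⟩ := not_all_closed hD S haS (by
    intro a b hba hb
    have h9 : b ∈ P a := mem_meet.1 hb a (self_inn a)
    have hab : a ≠ b := by
      rintro rfl
      exact D.loopless _ hba
    exact hA.rev a b hba (hA.sub a b h9 hab))
  have h9 : ∑ a, cc D (cl D (S a)) < ∑ a, cc D (S a) :=
    Finset.sum_lt_sum (fun a _ => G_le hD hmin (S a)) ⟨a0, mem_univ _, G_lt hD hmin _ ha0⟩
  have h10 : ∑ b, cc D (cl D (Y b)) ≤ ∑ b, cc D (Y b) :=
    Finset.sum_le_sum fun b _ => G_le hD hmin (Y b)
  linarith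

/-- Seymour's second neighbourhood conjecture. -/
theorem seymour [Nonempty V] (D : OGraph V) : ∃ v, (N1 D v).card ≤ (N2 D v).card := by
  by_contra hcon
  push Not at hcon
  obtain ⟨D0, h0, hmin⟩ := Set.exists_min_image {D : OGraph V | CE D} numArcs
    (Set.toFinite _) ⟨D, hcon⟩
  exact no_CE D0 h0 fun D' h' => hmin D' h'

end Vale.Agent.P038.H686
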