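import Mathlib

/-!
# P038 (H686): the key inequality (after 787 / 362)
-/

namespace Vale.Agent.P038.H686

open Finset

variable {V : Type*} [Fintype V]

/-- Layer cake, natural numbers. -/
theorem layer_nat (al ga : V → ℕ)
    (h : ∀ t : ℕ, (univ.filter fun a => t < al a).card ≤ (univ.filter fun z => t < ga z).card) :
    ∑ a, al a ≤ ∑ z, ga z := by
  classical
  obtain ⟨M, hM⟩ : ∃ M, ∀ a, al a ≤ M ∧ ga a ≤ M := by
    refine ⟨∑ a, (al a + ga a), fun a => ?_⟩
    have h1 : al a + ga a ≤ ∑ a, (al a + ga a) :=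
      Finset.single_le_sum (f := fun a => al a + ga a) (fun _ _ => Nat.zero_le _) (mem_univ a)
    omega
  have key : ∀ f : V → ℕ, (∀ a, f a ≤ M) →
      ∑ a, f a = ∑ t ∈ range M, (univ.filter fun a => t < f a).card := by
    intro f hf
    have e1 : ∀ a, f a = ∑ t ∈ range M, if t < f a then 1 else 0 := by
      intro a
      rw [← Finset.sum_filter, Finset.sum_const, smul_eq_mul, mul_one]
      have : (range M).filter (fun t => t < f a) = range (f a) := by
        ext t
        simp only [mem_filter, mem_range]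
        have := hf a
        omega
      rw [this, card_range]
    calc ∑ a, f a = ∑ a, ∑ t ∈ range M, (if t < f a then 1 else 0) :=
          Finset.sum_congr rfl fun a _ => e1 a
      _ = ∑ t ∈ range M, ∑ a, (if t < f a then 1 else 0) := Finset.sum_comm
      _ = _ := by
          refine Finset.sum_congr rfl fun t _ => ?_
          rw [Finset.card_filter]
  rw [key al fun a => (hM a).1, key ga fun a => (hM a).2]
  exact Finset.sum_le_sum fun t _ => h t

/-- Layer cake, integers. -/
theorem layer_int (al ga : V → ℤ) (hga : ∀ z, 0 ≤ ga z)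
    (h : ∀ t : ℤ, 0 ≤ t →
      (univ.filter fun a => t < al a).card ≤ (univ.filter fun z => t < ga z).card) :
    ∑ a, al a ≤ ∑ z, ga z := by
  classical
  have h1 := layer_nat (fun a => (al a).toNat) (fun z => (ga z).toNat) (by
    intro t
    have h2 := h t (Int.natCast_nonneg t)
    have e1 : (univ.filter fun a => t < (al a).toNat) = univ.filter fun a => (t : ℤ) < al a := by
      ext a
      simp only [mem_filter, mem_univ, true_and]
      omega
    have e2 : (univ.filter fun a => t < (ga a).toNat) = univ.filter fun a => (t : ℤ) < ga a := by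
      ext a
      simp only [mem_filter, mem_univ, true_and]
      omega
    rw [e1, e2]
    exact h2)
  have h3 : ∑ a, al a ≤ ∑ a, ((al a).toNat : ℤ) :=
    Finset.sum_le_sum fun a _ => Int.self_le_toNat (al a)
  have h4 : ∑ z, ((ga z).toNat : ℤ) = ∑ z, ga z :=
    Finset.sum_congr rfl fun z _ => Int.toNat_of_nonneg (hga z)
  have h5 : ((∑ a, (al a).toNat : ℕ) : ℤ) ≤ ((∑ z, (ga z).toNat : ℕ) : ℤ) := by exact_mod_cast h1
  push_cast at h5
  linarith

open Classical in
/-- The meet of the rows of `R` over the index set `J`. -/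
noncomputable def meet (R : V → Finset V) (J : Finset V) : Finset V :=
  univ.filter fun x => ∀ z ∈ J, x ∈ R z

theorem mem_meet {R : V → Finset V} {J : Finset V} {x : V} :
    x ∈ meet R J ↔ ∀ z ∈ J, x ∈ R z := by
  classical
  simp [meet]

open Classical in
/-- The key inequality. -/
theorem key (c : Finset V → ℤ) (hc : ∀ S T : Finset V, c (S ∩ T) + c (S ∪ T) ≤ c S + c T)
    (inn : V → Finset V) (P Q : V → Finset V) (hPQ : ∀ a, P a ⊆ Q a)
    (hR : ∀ a S, P a ⊆ S → S ⊆ Q a → c (P a) ≤ c S)
    (hC : ∀ b, ∀ T : Finset V, (∀ a ∈ T, b ∈ Q a ∧ b ∉ P a) →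
      T.card ≤ (univ.filter fun t => b ∈ meet Q (inn t) ∧ ∃ z ∈ inn t, z ∈ T).card) :
    ∑ a, (c (Q a) - c (P a)) ≤ ∑ t, (c (meet Q (inn t)) - c (meet P (inn t))) := by
  have hex : ∀ Y K : Finset V, ∃ Z : Finset V, Y ⊆ K →
      (Y ⊆ Z ∧ Z ⊆ K ∧ ∀ Z', Y ⊆ Z' → Z' ⊆ K → c Z ≤ c Z') := by
    intro Y K
    by_cases hYK : Y ⊆ K
    · obtain ⟨Z, hZ, hmin⟩ := Finset.exists_min_image
        (univ.filter fun Z : Finset V => Y ⊆ Z ∧ Z ⊆ K) c
        ⟨Y, by simp [hYK]⟩
      simp only [mem_filter, mem_univ, true_and] at hZ hmin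
      exact ⟨Z, fun _ => ⟨hZ.1, hZ.2, fun Z' h1 h2 => hmin Z' ⟨h1, h2⟩⟩⟩
    · exact ⟨Y, fun h => absurd h hYK⟩
  choose ar har using hex
  have hmeet_sub : ∀ (R : V → Finset V) (t z : V), z ∈ inn t → meet R (inn t) ⊆ R z :=
    fun R t z hz x hx => mem_meet.1 hx z hz
  have hmm : ∀ t, meet P (inn t) ⊆ meet Q (inn t) := fun t x hx =>
    mem_meet.2 fun z hz => hPQ z (mem_meet.1 hx z hz)
  -- meets are optimal
  have hopt : ∀ t S, meet P (inn t) ⊆ S → S ⊆ meet Q (inn t) → c (meet P (inn t)) ≤ c S := by
    intro t S h1 h2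
    have hJ : ∀ J : Finset V, J ⊆ inn t → c (S.filter fun x => ∀ z ∈ J, x ∈ P z) ≤ c S := by
      intro J
      induction J using Finset.induction_on with
      | empty => intro _; simp
      | insert z J hz ih =>
        intro hJ
        have hzt : z ∈ inn t := hJ (mem_insert_self z J)
        have ih' := ih ((subset_insert z J).trans hJ)
        set Z := S.filter fun x => ∀ z ∈ J, x ∈ P z with hZ
        have e : (S.filter fun x => ∀ y ∈ insert z J, x ∈ P y) = Z ∩ P z := by
          ext x
          simp only [hZ, mem_filter, mem_inter, mem_insert, forall_eq_or_imp]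
          tauto
        rw [e]
        have h3 := hc Z (P z)
        have h4 := hR z (Z ∪ P z) subset_union_right
          (union_subset ((filter_subset _ _).trans (h2.trans (hmeet_sub Q t z hzt))) (hPQ z))
        linarith
    have h3 := hJ (inn t) (Subset.refl _)
    have e : (S.filter fun x => ∀ z ∈ inn t, x ∈ P z) = meet P (inn t) := by
      ext x
      rw [mem_filter, mem_meet]
      exact ⟨fun h => h.2, fun h => ⟨h1 (mem_meet.2 h), h⟩⟩
    rwa [e] at h3
  -- the truncated minima
  let k : V → Finset V → ℤ := fun a W => c (ar (P a ∪ (W ∩ Q a)) (Q a))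
  let m : V → Finset V → ℤ := fun t W =>
    c (ar (meet P (inn t) ∪ (W ∩ meet Q (inn t))) (meet Q (inn t)))
  have hkad : ∀ a W, P a ∪ (W ∩ Q a) ⊆ Q a := fun a W => union_subset (hPQ a) inter_subset_right
  have hmad : ∀ t W, meet P (inn t) ∪ (W ∩ meet Q (inn t)) ⊆ meet Q (inn t) :=
    fun t W => union_subset (hmm t) inter_subset_right
  have hk0 : ∀ a, k a ∅ = c (P a) := by
    intro a
    obtain ⟨h1, h2, h3⟩ := har _ _ (hkad a ∅)
    refine le_antisymm (h3 (P a) (by simp) (hPQ a)) (hR a _ (subset_union_left.trans h1) h2)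
  have hm0 : ∀ t, m t ∅ = c (meet P (inn t)) := by
    intro t
    obtain ⟨h1, h2, h3⟩ := har _ _ (hmad t ∅)
    refine le_antisymm (h3 _ (by simp) (hmm t)) (hopt t _ (subset_union_left.trans h1) h2)
  have hk1 : ∀ a, k a univ = c (Q a) := by
    intro a
    obtain ⟨h1, h2, h3⟩ := har _ _ (hkad a univ)
    have : ar (P a ∪ (univ ∩ Q a)) (Q a) = Q a :=
      Subset.antisymm h2 (Subset.trans (by simp) h1)
    simp only [k, this]
  have hm1 : ∀ t, m t univ = c (meet Q (inn t)) := by
    intro t
    obtain ⟨h1, h2, h3⟩ := har _ _ (hmad t univ)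
    have : ar (meet P (inn t) ∪ (univ ∩ meet Q (inn t))) (meet Q (inn t)) = meet Q (inn t) :=
      Subset.antisymm h2 (Subset.trans (by simp) h1)
    simp only [m, this]
  have hmmono : ∀ t W b, m t W ≤ m t (insert b W) := by
    intro t W b
    obtain ⟨h1, h2, -⟩ := har _ _ (hmad t (insert b W))
    obtain ⟨-, -, h3⟩ := har _ _ (hmad t W)
    refine h3 _ (Subset.trans ?_ h1) h2
    exact union_subset_union (Subset.refl _)
      (inter_subset_inter (subset_insert b W) (Subset.refl _))
  have hkeq : ∀ a W b, ¬ (b ∈ Q a ∧ b ∉ P a) → k a (insert b W) = k a W := by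
    intro a W b hb
    have : P a ∪ (insert b W ∩ Q a) = P a ∪ (W ∩ Q a) := by
      ext x
      simp only [mem_union, mem_inter, mem_insert]
      constructor
      · rintro (h | ⟨rfl | h, h'⟩)
        · exact Or.inl h
        · by_cases hx : x ∈ P a
          · exact Or.inl hx
          · exact absurd ⟨h', hx⟩ hb
        · exact Or.inr ⟨h, h'⟩
      · rintro (h | ⟨h, h'⟩)
        · exact Or.inl h
        · exact Or.inr ⟨Or.inr h, h'⟩
    simp only [k, this]
  have hcomp : ∀ t z W b, z ∈ inn t → b ∈ meet Q (inn t) →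
      k z (insert b W) - k z W ≤ m t (insert b W) - m t W := by
    intro t z W b hz hb
    obtain ⟨a1, a2, -⟩ := har _ _ (hmad t (insert b W))
    obtain ⟨b1, b2, -⟩ := har _ _ (hkad z W)
    obtain ⟨-, -, a3⟩ := har _ _ (hmad t W)
    obtain ⟨-, -, b3⟩ := har _ _ (hkad z (insert b W))
    set Z' := ar (meet P (inn t) ∪ (insert b W ∩ meet Q (inn t))) (meet Q (inn t)) with hZ'
    set Z := ar (P z ∪ (W ∩ Q z)) (Q z) with hZ
    have hbZ' : b ∈ Z' := a1 (mem_union_right _ (mem_inter.2 ⟨mem_insert_self b W, hb⟩))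
    have h1 : k z (insert b W) ≤ c (Z ∪ Z') := by
      refine b3 _ ?_ (union_subset b2 (a2.trans (hmeet_sub Q t z hz)))
      intro x hx
      rcases mem_union.1 hx with hx | hx
      · exact mem_union_left _ (b1 (mem_union_left _ hx))
      · obtain ⟨hx1, hx2⟩ := mem_inter.1 hx
        rcases mem_insert.1 hx1 with rfl | hx1
        · exact mem_union_right _ hbZ'
        · exact mem_union_left _ (b1 (mem_union_right _ (mem_inter.2 ⟨hx1, hx2⟩)))
    have h2 : m t W ≤ c (Z ∩ Z') := by
      refine a3 _ ?_ (inter_subset_right.trans a2)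
      intro x hx
      rcases mem_union.1 hx with hx | hx
      · exact mem_inter.2 ⟨b1 (mem_union_left _ (hmeet_sub P t z hz hx)),
          a1 (mem_union_left _ hx)⟩
      · obtain ⟨hx1, hx2⟩ := mem_inter.1 hx
        exact mem_inter.2 ⟨b1 (mem_union_right _ (mem_inter.2 ⟨hx1, hmeet_sub Q t z hz hx2⟩)),
          a1 (mem_union_right _ (mem_inter.2 ⟨mem_insert_of_mem hx1, hx2⟩))⟩
    have h3 := hc Z Z'
    have h4 : k z W = c Z := rfl
    have h5 : m t (insert b W) = c Z' := rfl
    linarith
  -- induction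
  have hind : ∀ W : Finset V, ∑ a, (k a W - k a ∅) ≤ ∑ t, (m t W - m t ∅) := by
    intro W
    induction W using Finset.induction_on with
    | empty => simp
    | insert b W hb ih =>
      have hstep : ∑ a, (k a (insert b W) - k a W) ≤ ∑ t, (m t (insert b W) - m t W) := by
        apply layer_int _ _ (fun t => by have := hmmono t W b; linarith)
        intro s hs
        set T := univ.filter fun a => s < k a (insert b W) - k a W with hT
        have hT1 : ∀ a ∈ T, b ∈ Q a ∧ b ∉ P a := by
          intro a ha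
          by_contra hcon
          have h1 := (mem_filter.1 ha).2
          rw [hkeq a W b hcon] at h1
          linarith
        refine (hC b T hT1).trans (card_le_card ?_)
        intro t ht
        simp only [mem_filter, mem_univ, true_and] at ht ⊢
        obtain ⟨hbt, z, hz, hzT⟩ := ht
        have h1 := (mem_filter.1 hzT).2
        have h2 := hcomp t z W b hz hbt
        linarith
      have e1 : ∑ a, (k a (insert b W) - k a ∅) =
          ∑ a, (k a (insert b W) - k a W) + ∑ a, (k a W - k a ∅) := by
        rw [← Finset.sum_add_distrib]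
        exact Finset.sum_congr rfl fun a _ => by ring
      have e2 : ∑ t, (m t (insert b W) - m t ∅) =
          ∑ t, (m t (insert b W) - m t W) + ∑ t, (m t W - m t ∅) := by
        rw [← Finset.sum_add_distrib]
        exact Finset.sum_congr rfl fun a _ => by ring
      rw [e1, e2]
      linarith
  have h1 := hind univ
  simpa only [hk0, hm0, hk1, hm1] using h1

end Vale.Agent.P038.H686
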